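import Vale.Agent.P004C.All0
import Vale.Agent.P004C.Ln.Ei2

/-!
# P004 C: the anchor for an irreducible residual representation, without hypotheses
-/

namespace Vale.Agent.P004C

theorem anchor_irr : P004F.ANCHOR P004T.Irr := Wi.anchor0 Ln.ei2

end Vale.Agent.P004C
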