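import Vale.Agent.P004C.As.All
import Vale.Agent.P004C.Ms.All
import Vale.Agent.P004C.Ms.Tfc
import Vale.Agent.P004C.Ld.Ser
import Vale.Agent.P004C.Ld.Lg
import Vale.Agent.P004C.Ld.Tau
import Vale.Agent.P004C.Ld.Loc
import Vale.Agent.P004C.Ld.Fnd
import Vale.Agent.P004C.Ld.Adm
import Vale.Agent.P004C.Ld.Dsc
import Vale.Agent.P004C.Ld.Pcs
import Vale.Agent.P004C.Ld.Tfb
import Vale.Agent.P004C.Ld.Pga
import Vale.Agent.P004C.Ld.Vly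
import Vale.Agent.P004C.Ld.Vlz
import Vale.Agent.P004C.Ld.Ipw
import Vale.Agent.P004C.Ld.Ipm
import Vale.Agent.P004C.Ld.Goo
import Vale.Agent.P004C.Ld.Piy
import Vale.Agent.P004C.Ld.Sum
import Vale.Agent.P004C.Ld.Cnt
import Vale.Agent.P004C.Ld.Kv
import Vale.Agent.P004C.Ld.Fov
import Vale.Agent.P004C.Ld.Frm
import Vale.Agent.P004C.Ld.Coo
import Vale.Agent.P004C.Ld.Fin
import Vale.Agent.P004C.Al.A0
import Vale.Agent.P004C.Al.A2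
import Vale.Agent.P004C.Al.A3
import Vale.Agent.P004C.Al.A8
import Vale.Agent.P004C.Al.Umf
import Vale.Agent.P004C.Al.Dvf
import Vale.Agent.P004C.Al.Pai
import Vale.Agent.P004C.Al.Dj
import Vale.Agent.P004C.Al.Ds2
import Vale.Agent.P004C.Al.Cmb
import Vale.Agent.P004C.Al.Smx
import Vale.Agent.P004C.Al.Rel
import Vale.Agent.P004C.Al.Icx
import Vale.Agent.P004C.Al.Lf2
import Vale.Agent.P004C.Al.Lf3
import Vale.Agent.P004C.Al.Dis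
import Vale.Agent.P004C.Al.Dic
import Vale.Agent.P004C.Al.Bd1
import Vale.Agent.P004C.Al.Cub
import Vale.Agent.P004C.Al.Par
import Vale.Agent.P004C.Al.Aux4
import Vale.Agent.P004C.Al.Log
import Vale.Agent.P004C.Al.Lin
import Vale.Agent.P004C.Al.Alx
import Vale.Agent.P004C.Mu.Glue
import Vale.Agent.P004C.Mu.Kil
import Vale.Agent.P004C.Mu.Fin
import Vale.Agent.P004C.Mu.Gwl
import Vale.Agent.P004C.Mu.Rcp
import Vale.Agent.P004C.Mu.Twv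
import Vale.Agent.P004C.Mu.Sgn
import Vale.Agent.P004C.Mu.Lev
import Vale.Agent.P004C.Wa.Wald
import Vale.Agent.P004C.Wa.Ker
import Vale.Agent.P004C.Wa.Lift
import Vale.Agent.P004C.Wa.Fri
import Vale.Agent.P004C.Wa.Thk
import Vale.Agent.P004C.Wa.Cms
import Vale.Agent.P004C.Wa.Per
import Vale.Agent.P004C.Wa.Gen
import Vale.Agent.P004C.Wa.Gnt
import Vale.Agent.P004C.Wa.Sw
import Vale.Agent.P004C.Wa.Rs
import Vale.Agent.P004C.Wa.Tha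
import Vale.Agent.P004C.Wa.Thm
import Vale.Agent.P004C.Wa.Frk
import Vale.Agent.P004C.Wa.Rse
import Vale.Agent.P004C.Ln.Sum
import Vale.Agent.P004C.Ln.Fin
import Vale.Agent.P004C.Ln.Anac
import Vale.Agent.P004C.Ln.Bex
import Vale.Agent.P004C.Ln.Cfc
import Vale.Agent.P004C.Ln.Dvl
import Vale.Agent.P004C.Ln.Ei1
import Vale.Agent.P004C.Ln.Eps
import Vale.Agent.P004C.Ln.Hex
import Vale.Agent.P004C.Ln.Iot
import Vale.Agent.P004C.Ln.Lkg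
import Vale.Agent.P004C.Ln.Xi
import Vale.Agent.P004C.Ln.Lvx
import Vale.Agent.P004C.Ln.Sml
import Vale.Agent.P004C.Ln.Prm
import Vale.Agent.P004C.Ln.Tfx
import Vale.Agent.P004C.Ln.Cs3
import Vale.Agent.P004C.Ln.Pv3
import Vale.Agent.P004C.Ln.Twi
import Vale.Agent.P004C.Ln.Ana3
import Vale.Agent.P004C.Tp.Adp
import Vale.Agent.P004C.Tp.Bch1
import Vale.Agent.P004C.Tp.Dih
import Vale.Agent.P004C.Tp.Ds3
import Vale.Agent.P004C.Tp.Flm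
import Vale.Agent.P004C.Tp.Lay
import Vale.Agent.P004C.Tp.On3
import Vale.Agent.P004C.Tp.Onc
import Vale.Agent.P004C.Tp.Rho
import Vale.Agent.P004C.Tp.Rm2
import Vale.Agent.P004C.Tp.Dic
import Vale.Agent.P004K.Rc.All
import Vale.Agent.P004K.Hg.At
import Vale.Agent.P004R.Ext
import Vale.Agent.P004R.Ki
import Vale.Agent.P004F.Qx.Exp
import Vale.Agent.P004F.Qx.Dep
import Vale.Agent.P004F.Qx.Vex
import Vale.Agent.P004F.Qx.Unv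

/-!
# P004 C: the wiring of the blocks
-/

namespace Vale.Agent.P004C.Wi

open P004K P004F

theorem bnd : BND := As.bnd0 Ms.x_bas Ms.x_msr Ms.tfc

theorem congu : CONGU := As.congu0 Ms.x_bas Ms.x_msr Ms.tfc

theorem congr : CONGR := As.congr0 Ms.x_bas Ms.x_msr Ms.tfc

theorem ipw : Ld.IPW := Ld.ipw Ld.ipm Ld.pcs Ld.tfb Ld.goo Ld.fnd Ld.loc

theorem piy : Ld.PIY :=
  Ld.piy Ld.ps_all Ld.lg_row Ld.tau Ld.loc Ld.fnd Ld.adm Ld.dsc Ld.pcs Ld.tfb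
    (Ld.pga Ms.emb Ms.tfc Ld.tfb) (Ld.vly ipw) Ms.x_lms Ms.emb Ms.dif

theorem lead : LEAD :=
  Ld.fin Ms.x_bas Ms.emb Ms.dif piy (Ld.vlz ipw Ld.adm Ms.x_msr)
    (Ld.sum_row (Ld.cnt As.val) Ld.kv (Ld.fov As.val) Ld.pcs Ld.fnd) Ld.frm (Ld.coo Ld.lg_row) Ld.kv

theorem pai : Al.PAI := Al.pai Al.umf Al.dvf

theorem rel : Al.REL :=
  Al.rel Al.a0 Al.a1 Al.a2 Al.a6 Al.a7 Al.gbx Al.umf Al.dvf pai (Al.dj Al.kv Al.a7) Al.ds2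
    (Al.cmb bnd lead Al.smx)

theorem alx : Al.ALX :=
  Al.alx Al.gbx pai rel Al.icx Al.lf2 Al.lf3 Al.dis (Al.dic Al.umf)
    (Al.bd1 Al.a0 Al.a5 Al.a8 Al.a9 Al.umf Al.dvf pai) (Al.cub Al.a0 Al.a3 Al.umf Al.dvf pai)
    (Al.par (Al.aux (Al.log_row Al.kv) Al.lin) Al.icx Al.eta)

theorem mu : Mu.MU :=
  Mu.mu_of (Mu.kil Mu.fin Mu.gwl Mu.rcp)
    (Mu.twv (P004R.ext' x_rc1 x_rc2 x_rc3) P004R.ki Mu.sgn) (Mu.lev x_rc1 x_rc2)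

theorem wald : Wa.WALD :=
  Wa.wald Wa.ker Wa.lift Wa.fri Wa.thk Wa.cms Wa.per_row (Wa.gen Wa.thk) Wa.gnt (Wa.sw Wa.thk) Wa.rs

theorem thg : Wa.THG := Wa.thg_of Wa.thm

theorem fin1 : Ln.FIN1 := Ln.fin1 congu congr

theorem sml : Ln.SML :=
  have h := hg1 Rc.iq jh x_rc1 cj0
  Ln.sml (Qx.qexp Qx.vex h (Qx.dep_row h x_rc2)) (Ln.lkg x_rc1) (Ln.sum_row x_rc1 x_rc2 Qx.unv)
    (Ln.xi x_rc2) Ln.iot Ln.lvx h cj0

theorem anac (h : Ln.EI2) : Ln.ANAC :=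
  Ln.anac Ln.iot Ln.lvx sml Ln.bex Ln.cfc Ln.ei1 h fin1 Ln.dvl (Ln.xi x_rc2)

theorem bch : Tp.BCH := Tp.bch x_rc1 x_rc2 Tp.rho_row

theorem lay : Tp.LAY := Tp.lay x_rc1 x_rc2 Ln.iot Ln.lvx Tp.rho_row

theorem pv3 : Ln.PV3 := Ln.pv3 wald thg Wa.frk Wa.thk Ln.twi Ln.hex (Ln.xi x_rc2)

theorem ana3 : Ln.ANA3 :=
  Ln.ana3 Ln.hex Ln.eps thg Ln.cfc Ln.bex Ln.iot Ln.lvx sml pv3 fin1 (Ln.xi x_rc2) Ln.cs3 Ln.tfx
    (Ln.prm Ln.iot Ln.lvx)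

theorem anchor0 (h : Ln.EI2) : ANCHOR P004T.Irr :=
  Tp.top Tp.rho_row
    (Tp.on3 alx Al.icx Al.gbx (Tp.ds3 Ln.dvl) Ln.iot (Ln.xi x_rc2) Ln.lvx Tp.rho_row
      (Tp.dih Ln.hex Tp.R2.ram2) Tp.flm bch lay ana3)
    (Tp.onc alx Ln.dvl Ln.iot (Ln.xi x_rc2) Ln.lvx Tp.rho_row (Tp.dic Ln.hex Tp.R2.ram2) Tp.flm bch
      lay (anac h))
    (Tp.adp mu)

end Vale.Agent.P004C.Wi
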