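import Vale.Agent.P004C.Defs

/-!
# P004 C: the exports of the analytic block AN
-/

open NumberField Module
open scoped Classical

noncomputable section

namespace Vale.Agent.P004C

/-- smoothed partial sums are bounded -/
def BND : Prop := ∀ (K : Type) [Field K] [NumberField K] (ι : ℂ →+* ℂ_[2]) (J : K →+* ℂ) (Ω : ℝ),
  Base ι J Ω → ∀ (M : Type) [Field M] [NumberField M] [Algebra K M] (n : ℕ)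
  (b : Basis (Fin n) K M), Vb ι J b → ∀ (c : Ideal (𝓞 M)) (l : ℕ), Sm c l → ∃ C : ℝ,
  ∀ (k : ℕ) (f : Ideal (𝓞 M)) (a u : Ideal (𝓞 M) → ℂ), 3 ≤ k → Pv ι J f →
    f ⊔ Ideal.span {(l : 𝓞 M)} = ⊤ → (∃ w : Ideal (𝓞 M), w.IsMaximal ∧ f ≤ w ∧ 2 ∉ w) →
    HC J k f a → Ry f u → (∀ I, ‖ι (u I)‖ ≤ 1) →
    sc Ω (dv ι J b) n k * ‖ι (∑' I, a I * (u I - l * a c * u (c * I)))‖ ≤ C

/-- the leading term -/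
def LEAD : Prop := ∀ (K : Type) [Field K] [NumberField K] (ι : ℂ →+* ℂ_[2]) (J : K →+* ℂ) (Ω : ℝ),
  Base ι J Ω → ∀ (M : Type) [Field M] [NumberField M] [Algebra K M] (n : ℕ)
  (b : Basis (Fin n) K M), Vb ι J b → ∀ (c : Ideal (𝓞 M)) (l : ℕ), Sm c l → ∀ h r : ℕ, 0 < h →
  ∀ ε : ℝ, 0 < ε → ∃ m0 : ℕ, ∀ m, m0 ≤ m → ∃ A0 : ℕ, ∀ e A : ℕ, A0 ≤ e → A0 ≤ A →
  ∀ lam : Ideal (𝓞 K) → ℂ, La J h (2 ^ e) lam → ∀ (W : Fin (r + 1) → Ideal (𝓞 M))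
    (Φ : Ideal (𝓞 M) → ZMod (2 ^ A)) (φ : Fin (r + 1) → M → ZMod (2 ^ A)),
    Aux (2 * l) A W Φ φ → ∀ γ : Fin n ⊕ Fin r → M, Gb ι J W m γ → ∀ R, Rp ι J W m (2 * l) R →
    (∀ i < r, sc Ω (dv ι J b) n (2 * h * 2 ^ e) *
      ‖ι (zz W Φ (fun I => lam (Ideal.relNorm (𝓞 K) I)) c l i)‖ ≤ ε) ∧
    |sc Ω (dv ι J b) n (2 * h * 2 ^ e) *
      ‖ι (zz W Φ (fun I => lam (Ideal.relNorm (𝓞 K) I)) c l r)‖ -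
      ‖(1 - l : ℂ_[2]) * R.card * Matrix.det (Matrix.of fun j j' => Sum.elim
        (fun i => ι (J (b.repr ((γ j - 1) / 2 ^ m) i)))
        (fun i : Fin r => ((φ i.succ (γ j)).val : ℂ_[2])) j')‖| ≤ ε

/-- weight `k₁` against weight `k`, characters unramified above `v` (needed for `n = 1, 2`) -/
def CONGU : Prop := ∀ (K : Type) [Field K] [NumberField K] (ι : ℂ →+* ℂ_[2]) (J : K →+* ℂ) (Ω : ℝ),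
  Base ι J Ω → ∀ (M : Type) [Field M] [NumberField M] [Algebra K M] (n : ℕ)
  (b : Basis (Fin n) K M), n ≤ 2 → Vb ι J b → ∀ (c : Ideal (𝓞 M)) (l : ℕ), Sm c l →
  ∀ (k₁ k : ℕ) (f : Ideal (𝓞 M)) (a₁ a₂ : Ideal (𝓞 M) → ℂ) (z : ℂ) (δ : ℝ), (k₁ = 1 ∨ 3 ≤ k₁ ∧
      ∀ u : (𝓞 M)ˣ, (u : 𝓞 M) - 1 ∈ f → Algebra.norm K ((u : 𝓞 M) : M) = 1) → 3 ≤ k → Pv ι J f →
    f ⊔ Ideal.span {(l : 𝓞 M)} = ⊤ → TF f → (∃ w : Ideal (𝓞 M), w.IsMaximal ∧ f ≤ w ∧ 2 ∉ w) →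
    HC J k₁ f a₁ → HC J k f a₂ → (∀ I, Pv ι J I → ‖ι (a₁ I - a₂ I)‖ ≤ δ) → δ < 1 →
    ‖ι (1 - l * a₂ c)‖ = 1 → AC a₁ z → δ < sc Ω (dv ι J b) n k * ‖ι (∑' I, a₂ I)‖ →
    sc Ω (dv ι J b) n k₁ * (∏ᶠ P ∈ {P | Av ι J P}, ‖ι (1 - (Ideal.absNorm P * a₁ P)⁻¹)‖) * ‖ι z‖ =
      sc Ω (dv ι J b) n k * ‖ι (∑' I, a₂ I)‖

/-- the same when `v` is inert and the characters are tamely ramified at `v` -/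
def CONGR : Prop := ∀ (K : Type) [Field K] [NumberField K] (ι : ℂ →+* ℂ_[2]) (J : K →+* ℂ) (Ω : ℝ),
  Base ι J Ω → ∀ (M : Type) [Field M] [NumberField M] [Algebra K M], finrank K M = 2 →
  ∀ P : Ideal (𝓞 M), (∀ Q, Av ι J Q ↔ Q = P) → Ideal.absNorm P = 4 →
  ∀ (c : Ideal (𝓞 M)) (l : ℕ), Sm c l →
  ∀ (k : ℕ) (f : Ideal (𝓞 M)) (a₁ a₂ : Ideal (𝓞 M) → ℂ) (z : ℂ) (δ : ℝ), 3 ≤ k → Pv ι J f →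
    f ⊔ Ideal.span {(l : 𝓞 M)} = ⊤ → TF f → (∃ w : Ideal (𝓞 M), w.IsMaximal ∧ f ≤ w ∧ 2 ∉ w) →
    HC J 1 (f * P) a₁ → HC J k (f * P) a₂ → (∃ x : 𝓞 M, x - 1 ∈ f ∧ x ∉ P ∧
      a₂ (Ideal.span {x}) ≠ (J (Algebra.norm K (x : M)))⁻¹ ^ k) →
    (∀ I, Pv ι J I → ‖ι (a₁ I - a₂ I)‖ ≤ δ) → δ < 1 →
    ‖ι (1 - l * a₂ c)‖ = 1 → AC a₁ z → δ < sc Ω (1 / 4) 2 k * ‖ι (∑' I, a₂ I)‖ →
    sc Ω (1 / 4) 2 1 * ‖ι z‖ = sc Ω (1 / 4) 2 k * ‖ι (∑' I, a₂ I)‖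

end Vale.Agent.P004C
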